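import Vale.Agent.P092.H418.Reg

/-! The contents of this file are in `Vale/Agent/P092/H418/Reg.lean`. -/
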